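import Vale.Agent.Lib.P329.Tw.GroupB

open Vale.Agent.Lib.P329

/-- Every language recognized by a finite nilpotent group has generalized star height at most one. -/
theorem Vale.Agent.Results.P329.AA_nilpotent.result {S : Type} [Fintype S] {G : Type} [Group G]
    [Finite G] [Group.IsNilpotent G] (φ : S → G) (P : Set G) :
    ∃ E : GExpr S, sh E ≤ 1 ∧ lang E = {w : List S | (w.map φ).prod ∈ P} :=
  (Tw.nilpotent_meas φ).set P
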